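import Vale.Agent.P286E67.Hn
import Vale.Agent.P286EX6.Em
import Vale.Agent.P286EX.Spec
import Vale.Agent.P286EC.Gen

/-!
# The coaction on the cohomology of a fibre-cartesian family
-/

set_option linter.all false

namespace Vale.Agent.P286EX

open CategoryTheory Matrix TensorProduct Vale.Agent.P286 Vale.Agent.P286.St Vale.Agent.P286.H847
  Vale.Agent.P286E Vale.Agent.P286EG Kun

noncomputable section

variable {G : Grp} {K : GK G}

/-- Two maps `l`, `r` from `M` to the base change `N` of `M` along `A → A ⊗ O(G)`, with a common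
retraction. -/
structure CoD (K : GK G) {A : Type} [CommRing A] [Algebra ℂ A] (M : AG A)
    (N : AG (A ⊗[ℂ] K.O.R)) where
  cM : Cs M
  cN : Cs N
  l : GD.Hom M.G N.G
  r : GD.Hom M.G N.G
  db : DB (iL A K.O.R) M N l
  f : GD.Hom N.G M.G
  f_l : ∀ x, f.f (l.f x) = x
  f_r : ∀ x, f.f (r.f x) = x
  f_fn : ∀ o y, f.f (N.fn (1 ⊗ₜ o) y) = K.e1 o • f.f y

namespace CoD

variable {A A' : Type} [CommRing A] [Algebra ℂ A] [CommRing A'] [Algebra ℂ A'] {M : AG A}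
  {N : AG (A ⊗[ℂ] K.O.R)} {M' : AG A'} {N' : AG (A' ⊗[ℂ] K.O.R)} (c : CoD K M N) (c' : CoD K M' N')
  {q : ℤ}

/-- The isomorphism `O ⊗ H(M) → H(N)`. -/
def ku (q : ℤ) : K.O.R ⊗[ℂ] Hn M.G q ≃ₗ[ℂ] Hn N.G q :=
  LinearEquiv.ofBijective (kun c.cN c.l q) (kun_bij c.cM c.cN c.db q)

theorem ku_tmul (o : K.O.R) (m : Hn M.G q) :
    c.ku q (o ⊗ₜ m) = Hn.map (fnG N (1 ⊗ₜ o)) q (Hn.map c.l q m) := rfl

/-- The coaction. -/
def rho (q : ℤ) : Hn M.G q →ₗ[ℂ] K.O.R ⊗[ℂ] Hn M.G q := (c.ku q).symm.toLinearMap ∘ₗ Hn.map c.r q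

theorem ku_rho (m : Hn M.G q) : c.ku q (c.rho q m) = Hn.map c.r q m :=
  (c.ku q).apply_symm_apply _

theorem rho_eq {m : Hn M.G q} {ω : K.O.R ⊗[ℂ] Hn M.G q} :
    c.rho q m = ω ↔ Hn.map c.r q m = c.ku q ω := (c.ku q).symm_apply_eq

theorem f_ku (ω : K.O.R ⊗[ℂ] Hn M.G q) :
    Hn.map c.f q (c.ku q ω) = ctr K.e1.toLinearMap _ ω := by
  induction ω using TensorProduct.induction_on with
  | zero => simp only [map_zero]
  | add x y hx hy => simp only [map_add, hx, hy]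
  | tmul o m =>
    obtain ⟨x, rfl⟩ := Hn.pr_surj m
    rw [ctr_tmul, ← map_smul]
    exact congrArg (Hn.pr _ q) (Subtype.ext ((c.f_fn o _).trans (congrArg _ (c.f_l _))))

theorem one (m : Hn M.G q) : ctr K.e1.toLinearMap _ (c.rho q m) = m := by
  rw [← c.f_ku, ku_rho, ← Hn.map_comp]
  exact Hn.map_id c.f_r m

theorem vf_ku (W : GD.Hom N.G N.G) (w : Derivation ℂ K.O.R K.O.R)
    (h1 : ∀ o y, W.f (N.fn (1 ⊗ₜ o) y) = N.fn (1 ⊗ₜ w o) y + N.fn (1 ⊗ₜ o) (W.f y))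
    (ν : Module.End ℂ (Hn M.G q))
    (h2 : ∀ m, Hn.map W q (Hn.map c.l q m) = Hn.map c.l q (ν m)) (ω : K.O.R ⊗[ℂ] Hn M.G q) :
    Hn.map W q (c.ku q ω) = c.ku q (dT w _ ω + ν.lTensor _ ω) := by
  induction ω using TensorProduct.induction_on with
  | zero => simp only [map_zero, add_zero]
  | add x y hx hy => simp only [map_add, hx, hy]; abel
  | tmul o m =>
    rw [LinearMap.rTensor_tmul, LinearMap.lTensor_tmul, map_add, ku_tmul, ku_tmul, ku_tmul, ← h2]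
    obtain ⟨y, hy⟩ := Hn.pr_surj (Hn.map c.l q m)
    rw [← hy]
    exact (congrArg (Hn.pr _ q) (Subtype.ext (h1 o y.1))).trans (map_add (Hn.pr _ q) _ _)

/-- The rational representation on the cohomology. -/
def cm (q : ℤ) (mu : Fin 3 → Module.End ℂ (Hn M.G q)) (W W' : Fin 3 → GD.Hom N.G N.G)
    (h1 : ∀ a o y, (W a).f (N.fn (1 ⊗ₜ o) y) =
      N.fn (1 ⊗ₜ K.L a o) y + N.fn (1 ⊗ₜ o) ((W a).f y))
    (h2 : ∀ a m, Hn.map (W a) q (Hn.map c.l q m) = 0)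
    (h3 : ∀ a m, Hn.map (W a) q (Hn.map c.r q m) = Hn.map c.r q (mu a m))
    (h1' : ∀ a o y, (W' a).f (N.fn (1 ⊗ₜ o) y) =
      N.fn (1 ⊗ₜ (-K.R a) o) y + N.fn (1 ⊗ₜ o) ((W' a).f y))
    (h2' : ∀ a m, Hn.map (W' a) q (Hn.map c.l q m) = Hn.map c.l q (mu a m))
    (h3' : ∀ a m, Hn.map (W' a) q (Hn.map c.r q m) = 0) : CM K (Hn M.G q) where
  mu := mu
  rho := c.rho q
  one := c.one
  L a m := c.rho_eq.2 (by
    rw [← h3, ← c.ku_rho, c.vf_ku (W a) (K.L a) (h1 a) 0 fun m => (h2 a m).trans (map_zero _).symm,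
      LinearMap.lTensor_zero, LinearMap.zero_apply, add_zero])
  R a m := by
    have h := c.vf_ku (W' a) (-K.R a) (h1' a) (mu a) (h2' a) (c.rho q m)
    rw [c.ku_rho, h3', eq_comm, LinearEquiv.map_eq_zero_iff] at h
    have e : dT (-K.R a) (Hn M.G q) = -dT (K.R a) _ := LinearMap.rTensor_neg _
    rw [e, LinearMap.neg_apply, neg_add_eq_zero] at h
    exact h.symm

theorem ku_nat (u : GD.Hom M.G M'.G) (v : GD.Hom N.G N'.G)
    (hl : ∀ x, v.f (c.l.f x) = c'.l.f (u.f x))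
    (hf : ∀ o y, v.f (N.fn (1 ⊗ₜ o) y) = N'.fn (1 ⊗ₜ o) (v.f y)) (ω : K.O.R ⊗[ℂ] Hn M.G q) :
    Hn.map v q (c.ku q ω) = c'.ku q ((Hn.map u q).lTensor _ ω) := by
  induction ω using TensorProduct.induction_on with
  | zero => simp only [map_zero]
  | add x y hx hy => simp only [map_add, hx, hy]
  | tmul o m =>
    obtain ⟨x, rfl⟩ := Hn.pr_surj m
    exact congrArg (Hn.pr _ q) (Subtype.ext ((hf o _).trans (congrArg _ (hl _))))

theorem rho_nat (u : GD.Hom M.G M'.G) (v : GD.Hom N.G N'.G)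
    (hl : ∀ x, v.f (c.l.f x) = c'.l.f (u.f x)) (hr : ∀ x, v.f (c.r.f x) = c'.r.f (u.f x))
    (hf : ∀ o y, v.f (N.fn (1 ⊗ₜ o) y) = N'.fn (1 ⊗ₜ o) (v.f y)) (m : Hn M.G q) :
    c'.rho q (Hn.map u q m) = (Hn.map u q).lTensor _ (c.rho q m) :=
  c'.rho_eq.2 (by rw [← c.ku_nat c' u v hl hf, c.ku_rho]; exact (Hn.map_sq hr m).symm)

theorem rho_iff (U : Rep K) (x : Fin U.n → Zn M.G q) (k : Fin U.n) :
    c.rho q (Hn.pr _ q (x k)) = ∑ l, U.r l k ⊗ₜ Hn.pr _ q (x l) ↔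
      Bd N.G q (c.r.f (x k).1 - ∑ l, N.fn (1 ⊗ₜ U.r l k) (c.l.f (x l).1)) := by
  have e : c.ku q (∑ l, U.r l k ⊗ₜ Hn.pr _ q (x l)) =
      Hn.pr _ q (∑ l, Hn.zmap (fnG N (1 ⊗ₜ U.r l k)) q (Hn.zmap c.l q (x l))) := by
    rw [map_sum, map_sum]
    rfl
  rw [c.rho_eq, e, Hn.map_pr, Hn.pr_eq, Submodule.coe_sum]
  rfl

end CoD

/-! ### Families on the charts -/

variable {I : Type} [SmallCategory I] {D : CD I} {s : ℂ}

theorem ev_cg (X : QO D) (o : K.O.R) : K.ev (cg K X) (cg_pt K X) o = 1 ⊗ₜ o :=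
  (AlgHom.congr_fun (K.eq_ev (cR K X.A.R)) o).symm

theorem fold_R (X : QO D) (o : K.O.R) :
    QM.φ (fold K s X) (1 ⊗ₜ o) = algebraMap ℂ X.A.R (K.e1 o) := by
  refine (dscR_R K _ _ ((K.adj (Grp.Pt.one G)).mul (Grp.Pt.one G)) o).trans ?_
  refine AlgHom.congr_fun (K.ext _ ((Algebra.ofId ℂ X.A.R).comp K.e1) ?_) o
  have h : K.g.map ((Algebra.ofId ℂ X.A.R).comp K.e1) = (K.g.map K.e1).map (Algebra.ofId ℂ X.A.R) :=
    rfl
  rw [K.ev_g, h, GK.e1, K.ev_g, map_one', adjugate_one, mul_one]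

theorem copM_R {X Y : QO D} (u : Ar G s X Y) (hu : QM.h u = 1) (o : K.O.R) :
    QM.φ (copM K u) (1 ⊗ₜ o) = 1 ⊗ₜ o := by
  have h := copM_cg K u
  rw [hu, map_one', adjugate_one, one_mul] at h
  exact AlgHom.congr_fun (K.ext ((QM.φ (copM K u)).comp (cR K X.A.R)) (cR K Y.A.R) h) o

/-- The functions act compatibly with the scalars. -/
def FA.Cs {T : TSite} (F : FA T) : Prop := ∀ X, Kun.Cs (F.M X)

theorem gfa_cs {T : TSite} (F : GTD T) : (gfa F).Cs := fun X => (F.dmod X).const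

theorem HG.fa_cs {T : TSite} {S : GS T} (F : HG S) : F.fa.Cs :=
  fun X c x => algebraMap_smul (T.R X) c x

variable (K) (xd : XD D) {F F' : FA (QS D G s)}

/-- The data of the coaction of a fibre-cartesian family. -/
def FA.cod (hs : F.Cs) (h : FC F) (i : I) :
    CoD K (A := RQ G s (Zo xd i)) (F.M (Zo xd i)) (F.M (cop K (Zo xd i))) where
  cM := hs _
  cN := hs _
  l := F.t (inl K s (Zo xd i))
  r := F.t (inr K xd s (Zo xd i))
  db := h _ _ (inl K s (Zo xd i)) ⟨rfl, rfl⟩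
  f := F.t (fold K s (Zo xd i))
  f_l x := (F.t_comp _ _ x).symm.trans ((congrArg (fun u => (F.t u).f x) (inl_fold K _)).trans
    (F.t_id _ x))
  f_r x := (F.t_comp _ _ x).symm.trans ((congrArg (fun u => (F.t u).f x)
    ((inr_fold K xd _).trans (zA_Zo K xd i))).trans (F.t_id _ x))
  f_fn o y := (F.sl (fold K s (Zo xd i)) _ y).trans
    ((congrArg (fun a => (F.M (Zo xd i)).fn a _) (fold_R (Zo xd i) o)).trans (hs _ _ _))

/-- The coaction on the cohomology over the universal point. -/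
abbrev FA.rho (hs : F.Cs) (h : FC F) (i : I) (q : ℤ) :
    Hn (F.M (Zo xd i)).G q →ₗ[ℂ] K.O.R ⊗[ℂ] Hn (F.M (Zo xd i)).G q := (FA.cod K xd hs h i).rho q

theorem FA.rho_hom (hs : F.Cs) (h : FC F) (hs' : F'.Cs) (h' : FC F') (u : FA.Hom F F') (i : I)
    (q : ℤ) (m : Hn (F.M (Zo xd i)).G q) : FA.rho K xd hs' h' i q (Hn.map (u.u _) q m) =
      (Hn.map (u.u _) q).lTensor _ (FA.rho K xd hs h i q m) :=
  (FA.cod K xd hs h i).rho_nat (FA.cod K xd hs' h' i) (u.u _) (u.u _) (u.nat _) (u.nat _)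
    (fun _ => u.li _ _) m

theorem FA.rho_Za (hs : F.Cs) (h : FC F) {i j : I} (α : i ⟶ j) (q : ℤ)
    (m : Hn (F.M (Zo xd i)).G q) : FA.rho K xd hs h j q (Hn.map (F.t (Za K xd s α)) q m) =
      (Hn.map (F.t (Za K xd s α)) q).lTensor _ (FA.rho K xd hs h i q m) :=
  (FA.cod K xd hs h i).rho_nat (FA.cod K xd hs h j) (F.t (Za K xd s α))
    (F.t (copM K (Za K xd s α)))
    (fun x => (F.t_comp _ _ x).symm.trans ((congrArg (fun u => (F.t u).f x)
      (inl_copM K _)).trans (F.t_comp _ _ x)))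
    (fun x => (F.t_comp _ _ x).symm.trans ((congrArg (fun u => (F.t u).f x)
      (inr_copM K xd _)).trans (F.t_comp _ _ x)))
    (fun o y => (F.sl _ _ y).trans (congrArg (fun a => (F.M (cop K (Zo xd j))).fn a _)
      (copM_R (Za K xd s α) rfl o))) m

theorem inr_zx (i : I) (z : D.C i) :
    QM.φ (inr K xd s (Zo xd i)) (zx D i z) = cL K (OZ D i) (zx D i z) :=
  (QM.hx (inr K xd s (Zo xd i)) z).trans (congrArg (cop K (Zo xd i)).x (D.κ_id i z))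

theorem FA.rho_zx (hs : F.Cs) (h : FC F) (i : I) (z : D.C i) (q : ℤ)
    (m : Hn (F.M (Zo xd i)).G q) :
    FA.rho K xd hs h i q (Hn.map (fnG (F.M (Zo xd i)) (zx D i z)) q m) =
      (Hn.map (fnG (F.M (Zo xd i)) (zx D i z)) q).lTensor _ (FA.rho K xd hs h i q m) :=
  (FA.cod K xd hs h i).rho_nat (FA.cod K xd hs h i) (fnG (F.M (Zo xd i)) (zx D i z))
    (fnG (F.M (cop K (Zo xd i))) (cL K (OZ D i) (zx D i z)))
    (fun x => (F.sl (inl K s (Zo xd i)) _ x).symm)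
    (fun x => ((F.sl (inr K xd s (Zo xd i)) _ x).trans
      (congrArg (fun a => (F.M (cop K (Zo xd i))).fn a _) (inr_zx (s := s) K xd i z))).symm)
    (fun o y => (LinearMap.congr_fun (map_mul (F.M (cop K (Zo xd i))).fn _ _) y).symm.trans
      ((congrArg (fun a => (F.M (cop K (Zo xd i))).fn a y) (mul_comm _ _)).trans
        (LinearMap.congr_fun (map_mul (F.M (cop K (Zo xd i))).fn _ _) y))) m

variable {K} (U : Rep K)

theorem FA.rho_iff (hs : F.Cs) (h : FC F) (i : I) (q : ℤ) (x : Fin U.n → Zn (F.M (Zo xd i)).G q)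
    (k : Fin U.n) : FA.rho K xd hs h i q (Hn.pr _ q (x k)) = ∑ l, U.r l k ⊗ₜ Hn.pr _ q (x l) ↔
      Bd _ q (eqv xd U F i (fun k => (x k).1) k) := by
  refine ((FA.cod K xd hs h i).rho_iff U x k).trans (iff_of_eq (congrArg (Bd _ q) ?_))
  refine congrArg (HSub.hSub _) (Finset.sum_congr rfl fun l _ => ?_)
  exact congrArg (fun a => (F.M (cop K (Zo xd i))).fn a _) (ev_cg (Zo xd i) (U.r l k)).symm

variable {xd U}

/-- The equivariant classes. -/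
theorem invC_iff (hs : F.Cs) (h : FC F) {i : I} {q : ℤ} (E : CM K (Hn (F.M (Zo xd i)).G q))
    (hE : E.rho = FA.rho K xd hs h i q) (x : Fin U.n → Zn (F.M (Zo xd i)).G q) :
    (fun k => Hn.pr _ q (x k)) ∈ E.Inv U ↔ InvC xd U F i q fun k => (x k).1 := by
  rw [CM.mem_Inv, hE]
  exact ⟨fun h1 => ⟨fun k => (x k).2, fun k => (FA.rho_iff xd U hs h i q x k).1 (h1 k)⟩,
    fun h1 k => (FA.rho_iff xd U hs h i q x k).2 (h1.2 k)⟩

/-- The map to the equivariant classes. -/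
def Hit.map {i : I} {N : GD} {e : Fin U.n → GD.Hom N (F.M (Zo xd i)).G} (he : Hit xd U F i N e)
    (hs : F.Cs) (h : FC F) {q : ℤ} (E : CM K (Hn (F.M (Zo xd i)).G q))
    (hE : E.rho = FA.rho K xd hs h i q) : Hn N q →ₗ[ℂ] E.Inv U :=
  (LinearMap.pi fun k => Hn.map (e k) q).codRestrict _ fun m => by
    obtain ⟨x, rfl⟩ := Hn.pr_surj m
    exact (invC_iff hs h E hE fun k => Hn.zmap (e k) q x).2 (he.inv q x.1 x.2)

theorem Hit.map_val {i : I} {N : GD} {e : Fin U.n → GD.Hom N (F.M (Zo xd i)).G}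
    (he : Hit xd U F i N e) (hs : F.Cs) (h : FC F) {q : ℤ} (E : CM K (Hn (F.M (Zo xd i)).G q))
    (hE : E.rho = FA.rho K xd hs h i q) (m : Hn N q) (k : Fin U.n) :
    (he.map hs h E hE m).1 k = Hn.map (e k) q m := rfl

theorem Hit.bij {i : I} {N : GD} {e : Fin U.n → GD.Hom N (F.M (Zo xd i)).G}
    (he : Hit xd U F i N e) (hs : F.Cs) (h : FC F) {q : ℤ} (E : CM K (Hn (F.M (Zo xd i)).G q))
    (hE : E.rho = FA.rho K xd hs h i q) : Function.Bijective (he.map hs h E hE) := by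
  refine ⟨(injective_iff_map_eq_zero _).2 fun m hm => ?_, fun η => ?_⟩
  · obtain ⟨x, rfl⟩ := Hn.pr_surj m
    exact Hn.pr_eq_zero.2 (he.inj q x.1 x.2 fun k =>
      Hn.pr_eq_zero.1 (congrFun (congrArg Subtype.val hm) k))
  · choose z hz using fun k => Hn.pr_surj (η.1 k)
    obtain ⟨x, hx, h1⟩ := he.sur q _ ((invC_iff hs h E hE z).1 (by rw [funext hz]; exact η.2))
    exact ⟨Hn.pr _ q ⟨x, hx⟩, Subtype.ext (funext fun k => ((hz k).symm.trans
      ((Hn.pr_eq (x' := Hn.zmap (e k) q ⟨x, hx⟩)).2 (h1 k))).symm)⟩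

/-- The converse: a bijection on the equivariant classes gives `Hit`. -/
theorem hit_of {i : I} {N : GD} {e : Fin U.n → GD.Hom N (F.M (Zo xd i)).G} (hs : F.Cs) (h : FC F)
    (E : ∀ q, CM K (Hn (F.M (Zo xd i)).G q)) (hE : ∀ q, (E q).rho = FA.rho K xd hs h i q)
    (h1 : ∀ q m, (fun k => Hn.map (e k) q m) ∈ (E q).Inv U)
    (h2 : ∀ q m, (∀ k, Hn.map (e k) q m = 0) → m = 0)
    (h3 : ∀ q, ∀ η ∈ (E q).Inv U, ∃ m, ∀ k, Hn.map (e k) q m = η k) : Hit xd U F i N e where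
  inv q x hx := (invC_iff hs h (E q) (hE q) fun k => Hn.zmap (e k) q ⟨x, hx⟩).1
    (h1 q (Hn.pr _ q ⟨x, hx⟩))
  inj q x hx hb := Hn.pr_eq_zero.1 (h2 q (Hn.pr _ q ⟨x, hx⟩) fun k => Hn.pr_eq_zero.2 (hb k))
  sur q z hz := by
    obtain ⟨m, hm⟩ := h3 q _ ((invC_iff hs h (E q) (hE q) fun k => ⟨z k, hz.1 k⟩).2 hz)
    obtain ⟨x, rfl⟩ := Hn.pr_surj m
    exact ⟨x.1, x.2, fun k => Hn.pr_eq.1 (hm k).symm⟩

end

end Vale.Agent.P286EX
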