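import Vale.Agent.P286E67.Disj

/-!
# The trivial summand on the chart `a` of `SO_3`
-/

set_option linter.all false

namespace Vale.Agent.P286E67

open Matrix Vale.Agent.P286 Vale.Agent.P286E Vale.Agent.P286EN Vale.Agent.P286EB
open Vale.Agent.P286ER (On reg_h0)

noncomputable section

attribute [-instance] HahnSeries.powerSeriesAlgebra

variable {A : Type} [CommRing A] {N n : ℕ}

theorem lead_mulVec {a b : ℤ} {S : Matrix (Fin N) (Fin N) (Ls A)} {c : Matrix (Fin N) (Fin N) A}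
    {v : Fin N → Ls A} (hS : Lead a S c) (hv : ∀ j, Ord b (v j)) (i : Fin N) :
    ((S *ᵥ v) i).coeff (a + b) = (c *ᵥ fun j => (v j).coeff b) i := by
  have h : Lead b (replicateCol Unit v) (replicateCol Unit fun i => (v i).coeff b) :=
    ⟨fun j _ => hv j, fun _ _ => rfl⟩
  exact (hS.mul h).2 i ()

theorem lead_sub {m l : Type} {a : ℤ} {S W : Matrix m l (Ls A)} {c d : Matrix m l A}
    (hS : Lead a S c) (hW : Lead a W d) : Lead a (S - W) (c - d) :=
  ⟨hS.ord.sub hW.ord, fun i j => by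
    rw [Matrix.sub_apply, HahnSeries.coeff_sub, hS.2, hW.2, Matrix.sub_apply]⟩

theorem cr_smul {m l : Type} (b : A) (c : Matrix m l A) :
    cr (b • c) = (HahnSeries.C b : Ls A) • cr c :=
  Matrix.ext fun i j => map_mul (HahnSeries.C : A →+* Ls A) b (c i j)

section
variable {M : Submodule A (Fin 3 → Ls A)} {θ : Ls A} {S : Matrix (Fin 3) (Fin n) (Ls A)}
  {D : Matrix (Fin n) (Fin 3) (Ls A)}

theorem Cra.ord_two (h : Cra M θ S D) (h3 : θ.coeff (-3) = 0) : Ord (-2) θ := ord_succ h.ord h3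

/-- Sections of `V` and of `V(o)` with complementary leading terms. -/
theorem Cra.exists_wv (h : Cra M θ S D) (h3 : θ.coeff (-3) = 0) (h2 : IsUnit (θ.coeff (-2))) :
    ∃ (W V : Matrix (Fin 3) (Fin 3) (Ls A)) (p : Matrix (Fin 3) (Fin 3) A), Col M W ∧ Col M V ∧
      Lead 0 W p ∧ Lead (-1) V (1 - p) := by
  obtain ⟨b, hb⟩ := h2.exists_left_inv
  obtain ⟨D2, l2⟩ : ∃ c, Lead (-2) D c := ⟨_, h.oD.lead⟩
  obtain ⟨S1, l1⟩ : ∃ c, Lead (-1) S c := ⟨_, h.oS.lead⟩
  have l3 : Lead (-2) (tp A (-2) • cr D2) D2 :=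
    (Lead.smul (Ord.tp (-2)) (HahnSeries.coeff_single_same _ _) (lead_cr D2)).cast (add_zero _) rfl
  obtain ⟨D1, l4⟩ : ∃ c, Lead (-1) (D - tp A (-2) • cr D2) c := ⟨_, OrdM.lead (l2.sub l3)⟩
  have l5 : Lead (-2) (θ • 1 - S * (D - tp A (-2) • cr D2)) (θ.coeff (-2) • 1 - S1 * D1) :=
    lead_sub (lead_sm (h.ord_two h3)) (l1.mul l4)
  have l6 : Lead 0 (tp A 2 • (θ • 1 - S * (D - tp A (-2) • cr D2))) _ :=
    Lead.smul (a := 2) (b := -2) (Ord.tp _) (HahnSeries.coeff_single_same _ _) l5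
  rw [Matrix.mul_sub, h.mul, sub_sub_cancel, Matrix.mul_smul, smul_smul, tp_mul, add_neg_cancel,
    tp_zero, one_smul] at l6
  refine ⟨S * cr (b • D2), S * cr (b • D1), 1 - b • (S1 * D1), col_cr h.col _, col_cr h.col _, ?_,
    (l1.mul (lead_cr _)).cast rfl (by rw [sub_sub_cancel, Matrix.mul_smul])⟩
  have l7 := l6.mul (lead_cr (b • (1 : Matrix (Fin 3) (Fin 3) A)))
  rw [Matrix.mul_assoc] at l7
  have e : cr D2 * cr (b • (1 : Matrix (Fin 3) (Fin 3) A)) = cr (b • D2) := by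
    rw [cr_smul, cr_smul, Matrix.mul_smul, cr, cr, Matrix.map_one _ (map_zero _) (map_one _),
      Matrix.mul_one]
  rw [e] at l7
  exact l7.cast rfl (by rw [Matrix.mul_smul, mul_one, smul_sub, smul_smul, hb, one_smul])

/-- Two sections of `V` are proportional. -/
theorem Cra.cross (h : Cra M θ S D) (h3 : θ.coeff (-3) = 0) (h2 : IsUnit (θ.coeff (-2)))
    {u w : Fin 3 → Ls A} (hu : u ∈ M) (hw : w ∈ M) (ou : ∀ i, Ord 0 (u i)) (ow : ∀ i, Ord 0 (w i))
    (i j : Fin 3) : u i * w j = u j * w i := by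
  have o : ∀ i j, Ord 0 (u i * w j - u j * w i) := fun i j =>
    ((ou i).mul_left (ow j)).sub ((ou j).mul_left (ow i))
  have ok : ∀ i, Ord 0 (crossProduct u w i) := fun i => by
    rw [cross_apply]
    fin_cases i
    exacts [o 1 2, o 2 0, o 0 1]
  have k1 : crossProduct u w ᵥ* S = 0 := funext fun q => by
    obtain ⟨c, hc⟩ := h.pl (of ![fun i => S i q, u, w])ᵀ
      (fun j => by fin_cases j; exacts [h.col q, hu, hw])
      (fun i j => by
        fin_cases j
        exacts [h.oS i q, (ou i).mono (by norm_num), (ow i).mono (by norm_num)])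
    have e : (of ![fun i => S i q, u, w])ᵀ.det = (crossProduct u w ᵥ* S) q := by
      rw [det_transpose]
      exact (triple_product_eq_det _ u w).symm.trans (dotProduct_comm _ _)
    have o1 : Ord (-1) ((crossProduct u w ᵥ* S) q) :=
      Ord.sum (u := fun i => crossProduct u w i * S i q) Finset.univ
        fun i _ => (ok i).mul_left (h.oS i q)
    have h4 := o1 (-2) (by norm_num)
    rw [← e, hc, HahnSeries.coeff_smul, smul_eq_mul, h2.mul_left_eq_zero] at h4
    rw [← e, hc, h4, zero_smul]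
    rfl
  have k2 : crossProduct u w = 0 := funext fun i => by
    have h5 := congrFun (congrArg (· ᵥ* D) k1) i
    simp only [vecMul_vecMul, h.mul, zero_vecMul, vecMul_smul, vecMul_one, Pi.smul_apply,
      smul_eq_mul] at h5
    exact eq_zero_of_mul_lead (h.ord_two h3) h2 ((mul_comm _ _).trans h5)
  rw [cross_apply] at k2
  have a0 : u 1 * w 2 = u 2 * w 1 := sub_eq_zero.1 (congrFun k2 0)
  have a1 : u 2 * w 0 = u 0 * w 2 := sub_eq_zero.1 (congrFun k2 1)
  have a2 : u 0 * w 1 = u 1 * w 0 := sub_eq_zero.1 (congrFun k2 2)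
  fin_cases i <;> fin_cases j
  exacts [rfl, a2, a1.symm, a2.symm, rfl, a0, a1, a0.symm, rfl]

end

variable [Algebra ℂ A] {E : Ell}

/-! ### The line bundle of order two -/

theorem sr_sq (c : A) : sr c * sr c = xs A - HahnSeries.C c := by
  have h := congrFun (congrFun (rho_mul_rho (N := 1) (of fun _ _ => c)) 0) 0
  rw [Matrix.mul_apply, Fin.sum_univ_one, Matrix.sub_apply, Matrix.smul_apply, one_apply_eq,
    smul_eq_mul, mul_one] at h
  exact h

theorem sr_sI (c : A) : sr c * sI c = 1 := by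
  have h := congrFun (congrFun (rho_mul_rhoI (N := 1) (of fun _ _ => c)) 0) 0
  rw [Matrix.mul_apply, Fin.sum_univ_one, one_apply_eq] at h
  exact h

theorem ord_sr (c : A) : Ord (-1) (sr c) := (lead_rho _).1 0 0

theorem ord_sI (c : A) : Ord 1 (sI c) := (lead_rhoI _).1 0 0

theorem sI_coeff (c : A) : (sI c).coeff 1 = 1 := ((lead_rhoI _).2 0 0).trans (one_apply_eq _)

theorem ysI_sq (e : Rt E) : ys E A * sI (ea e A) * (ys E A * sI (ea e A)) ∈ Px A := by
  have h1 := congrArg (fun c => (HahnSeries.C (algebraMap ℂ A c) : Ls A)) e.rt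
  simp only [map_add, map_mul, map_pow, map_zero] at h1
  have h2 : ys E A * sI (ea e A) * (ys E A * sI (ea e A)) = xs A ^ 2 +
      HahnSeries.C (ea e A) * xs A + (HahnSeries.C (ea e A) ^ 2 + cc A E.a) := by
    have h3 := ys_sq (A := A) E
    have h4 := sr_sq (ea e A)
    have h5 := sr_sI (ea e A)
    rw [ea] at h4 h5 ⊢
    rw [cc, cc] at h3
    rw [cc]
    set s := sr (algebraMap ℂ A e.e)
    set r := sI (algebraMap ℂ A e.e)
    set g := xs A ^ 2 + HahnSeries.C (algebraMap ℂ A e.e) * xs A +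
      (HahnSeries.C (algebraMap ℂ A e.e) ^ 2 + HahnSeries.C (algebraMap ℂ A E.a)) with hg
    have h6 : ys E A * ys E A = s * s * g := by rw [h3, h4, hg]; linear_combination h1
    linear_combination r * r * h6 + g * (s * r + 1) * h5
  rw [h2]
  exact (Px A).add_mem ((Px A).add_mem ((Px A).pow_mem xs_mem_Px 2)
    ((Px A).mul_mem (C_mem_Px _) xs_mem_Px)) ((Px A).add_mem ((Px A).pow_mem (C_mem_Px _) 2)
      (cc_mem _))

theorem coeff_eq_zero {r : Ls A} (hr : E.Reg r) (h : Ord (-1) r) : r.coeff (-1) = 0 := by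
  rw [reg_h0 hr h, HahnSeries.C_apply, HahnSeries.coeff_single_of_ne (by norm_num)]

/-- `H⁰(J) = 0`. -/
theorem j_zero (e : Rt E) {z : Ls A} (hz : InJ e z) (h : Ord 0 z) : z = 0 := by
  have h1 := reg_h0 hz.1 ((ord_sr _).mul' h)
  set c := (sr (ea e A) * z).coeff 0
  have h2 : z = sI (ea e A) * HahnSeries.C c := by
    rw [← h1, ← mul_assoc, mul_comm (sI _), sr_sI, one_mul]
  have o1 : Ord (-2) (ys E A * sI (ea e A)) := (ord_ys E).mul' (ord_sI _)
  have o2 : Ord 1 (sI (ea e A) * HahnSeries.C c) := (ord_sI _).mul' (Ord.C c)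
  have h3 := hz.2
  rw [h2] at h3
  have h4 := coeff_eq_zero h3 (o1.mul' o2)
  have h5 := coeff_mul_lead o1 o2
  have h6 := coeff_mul_lead (ord_ys (A := A) E) (ord_sI (ea e A))
  have h7 := coeff_mul_lead (ord_sI (ea e A)) (Ord.C c)
  rw [ys_coeff, sI_coeff, mul_one] at h6
  rw [sI_coeff, one_mul, HahnSeries.C_apply, HahnSeries.coeff_single_same] at h7
  have h8 : c = 0 := by
    rw [← h7, ← h4]
    exact ((congrArg₂ (· * ·) h6 rfl).trans (one_mul _)).symm.trans h5.symm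
  rw [h2, h8, map_zero, mul_zero]

/-- `H¹(J) = 0`. -/
theorem j_span (e : Rt E) (z : Ls A) : ∃ j, InJ e j ∧ Ord 0 (z - j) := by
  obtain ⟨_, ⟨u, v, hu, hv, rfl⟩, h⟩ := (cpl_U E (N := 1) (of fun _ _ => ea e A) 0).exists fun _ => z
  refine ⟨sr (ea e A) * u 0 + ys E A * sI (ea e A) * v 0, ⟨?_, ?_⟩, ?_⟩
  · refine (reg_iff E).2 ⟨(xs A - HahnSeries.C (ea e A)) * u 0, (Px A).mul_mem
      ((Px A).sub_mem xs_mem_Px (C_mem_Px _)) (hu 0), v 0, hv 0, ?_⟩
    linear_combination u 0 * sr_sq (ea e A) + ys E A * v 0 * sr_sI (ea e A)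
  · refine (reg_iff E).2 ⟨_, (Px A).mul_mem (ysI_sq e) (hv 0), u 0, hu 0, ?_⟩
    linear_combination ys E A * u 0 * sr_sI (ea e A)
  · have h1 := h 0
    rw [sig, cm_zero, add_zero, smul_mul_assoc, one_mul, Pi.sub_apply, Pi.add_apply, mulVec, mulVec,
      dotProduct, dotProduct, Fin.sum_univ_one, Fin.sum_univ_one] at h1
    exact h1

theorem mem_tw {e : Rt E} {π : Matrix (Fin N) (Fin N) (Ls A)} {M : Submodule A (Fin N → Ls A)}
    {u : Fin N → Ls A} : u ∈ tw e π M ↔ (1 - π) *ᵥ u ∈ M ∧ sr (ea e A) • π *ᵥ u ∈ M ∧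
      (ys E A * sI (ea e A)) • π *ᵥ u ∈ M := by
  rw [← smul_mulVec, ← smul_mulVec]
  exact and_assoc

/-- The twist of the trivial summand has no cohomology. -/
theorem cpl_tw (e : Rt E) {M : Submodule A (Fin N → Ls A)} (hs : Stab (Rg E A) M)
    (hf : ∀ m ∈ M, ∀ m' ∈ M, E.Reg (m ⬝ᵥ m')) (top : M ⊔ On N A (-1) = ⊤)
    {W V : Matrix (Fin N) (Fin N) (Ls A)} {p : Matrix (Fin N) (Fin N) A} (hW : Col M W)
    (hV : Col M V) (lW : Lead 0 W p) (lV : Lead (-1) V (1 - p)) (p1 : p * pᵀ = p) (p2 : p * p = p)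
    (fix : ∀ u ∈ M, (∀ i, Ord 0 (u i)) → (W * Wᵀ) *ᵥ u = u) : Cpl (tw e (W * Wᵀ) M) := by
  have e1 : ∀ z, (W * Wᵀ) *ᵥ (W *ᵥ z) = W *ᵥ z := fun z => by
    have h : W * Wᵀ * W = W := Matrix.ext fun i j => congrFun (fix _ (hW j) fun i => lW.1 i j) i
    rw [mulVec_mulVec, h]
  have e2 : ∀ u, (W * Wᵀ) *ᵥ ((1 - W * Wᵀ) *ᵥ u) = 0 := fun u => by
    rw [sub_mulVec, one_mulVec, mulVec_sub, ← mulVec_mulVec u, e1, sub_self]
  have lQ : Lead 0 (1 - W * Wᵀ) (1 - p) :=
    lead_sub lead_one ((lW.mul lW.transpose).cast rfl p1)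
  have iQ : IntM (1 - W * Wᵀ) := lQ.1
  have iW : IntM W := lW.1
  refine cpl_of (fun u hu ou => ?_) fun u => ?_
  · obtain ⟨h1, h2, h3⟩ := mem_tw.1 hu
    have h4 := fix _ h1 (iQ.mulVec ou)
    rw [e2, sub_mulVec, one_mulVec, eq_comm, sub_eq_zero, eq_comm] at h4
    rw [h4] at h2 h3
    have h5 : Wᵀ *ᵥ u = 0 := funext fun j => j_zero e
      ⟨(congrArg E.Reg (dotProduct_smul _ _ u)).mp (hf _ (hW j) _ h2),
        (congrArg E.Reg (dotProduct_smul _ _ u)).mp (hf _ (hW j) _ h3)⟩ (iW.transpose.mulVec ou j)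
    rw [← h4, ← mulVec_mulVec, h5, mulVec_zero]
  · choose j hj oj using fun i => j_span e ((Wᵀ *ᵥ u) i)
    obtain ⟨m, hm, o, ho, rfl⟩ := Submodule.mem_sup.1 (top ▸ Submodule.mem_top : u ∈ M ⊔ _)
    let c : Fin N → Ls A := fun i => HahnSeries.C ((o i).coeff (-1))
    have hm' : m + V *ᵥ c ∈ M := M.add_mem hm (hV.mulVec hs fun i => Px_le_Rg E (C_mem_Px _))
    have hq : (1 - W * Wᵀ) *ᵥ (m + V *ᵥ c) ∈ M := by
      rw [sub_mulVec, one_mulVec, ← mulVec_mulVec]
      exact M.sub_mem hm' (hW.mulVec hs fun i => hf _ (hW i) _ hm')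
    refine ⟨W *ᵥ j + (1 - W * Wᵀ) *ᵥ (m + V *ᵥ c), Submodule.add_mem _ (mem_tw.2 ⟨?_, ?_, ?_⟩)
      (mem_tw.2 ⟨?_, ?_, ?_⟩), fun i => ?_⟩
    · rw [sub_mulVec, one_mulVec, e1, sub_self]
      exact M.zero_mem
    · rw [e1, ← mulVec_smul]
      exact hW.mulVec hs fun i => (hj i).1
    · rw [e1, ← mulVec_smul]
      exact hW.mulVec hs fun i => (hj i).2
    · rw [sub_mulVec 1 (W * Wᵀ) (_ *ᵥ _), one_mulVec, e2, sub_zero]
      exact hq
    · rw [e2, smul_zero]
      exact M.zero_mem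
    · rw [e2, smul_zero]
      exact M.zero_mem
    · have e3 : m + o - (W *ᵥ j + (1 - W * Wᵀ) *ᵥ (m + V *ᵥ c)) =
          W *ᵥ (Wᵀ *ᵥ (m + o) - j) + (1 - W * Wᵀ) *ᵥ (o - V *ᵥ c) := by
        simp only [mulVec_sub, mulVec_add, sub_mulVec, one_mulVec, ← mulVec_mulVec]
        abel
      have oc : ∀ i, Ord 0 (c i) := fun i => Ord.C _
      have o1 : ∀ i, Ord (-1) ((o - V *ᵥ c) i) := fun i => (ho i).sub (lV.ord.mulVec oc i)
      have o2 : (fun i => ((o - V *ᵥ c) i).coeff (-1)) = p *ᵥ fun i => (o i).coeff (-1) := by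
        funext i
        have h1 := lead_mulVec lV oc i
        have h2 : (fun i => (c i).coeff 0) = fun i => (o i).coeff (-1) :=
          funext fun i => HahnSeries.coeff_single_same _ _
        rw [add_zero, h2, sub_mulVec, one_mulVec] at h1
        rw [Pi.sub_apply, HahnSeries.coeff_sub, h1, Pi.sub_apply, sub_sub_cancel]
      rw [e3]
      refine (iW.mulVec oj i).add (ord_succ (n := -1) (iQ.mulVec o1 i) ?_)
      have h3 := lead_mulVec lQ o1 i
      rwa [zero_add, o2, mulVec_mulVec, sub_mul, one_mul, p2, sub_self, zero_mulVec] at h3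

theorem cpa (hC : CRD) (hP : PL) : CPA := by
  intro E e A _ _ _ v M hv hM hs hf vol h2
  obtain ⟨b, hb⟩ := h2.exists_left_inv
  obtain ⟨hr, n, S, D, h⟩ := exists_cra hC hP hv hM vol
    (l := b • HahnSeries.coeff.linearMap (-2)) hb
  have h3 : (Th v).coeff (-3) = 0 := h2.mul_right_eq_zero.1 (h.disj hr hf).2
  obtain ⟨W, V, p, hW, hV, lW, lV⟩ := h.exists_wv h3 h2
  have p0 : pᵀ * (1 - p) = 0 := Matrix.ext fun i j =>
    ((lW.transpose.mul lV).2 i j).symm.trans
      (coeff_eq_zero (gram hf hW hV i j) ((lW.transpose.mul lV).1 i j))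
  rw [mul_sub, mul_one, sub_eq_zero] at p0
  have pt : pᵀ = p := by
    have h4 := congrArg transpose p0
    rw [transpose_mul, transpose_transpose, ← p0] at h4
    exact h4.symm
  rw [pt] at p0
  have cw : ∀ a b i j, W i a * W j b = W j a * W i b := fun a b =>
    h.cross h3 h2 (hW a) (hW b) (fun i => lW.1 i a) fun i => lW.1 i b
  have cp : ∀ a b i j, p i a * p j b = p j a * p i b := fun a b i j => by
    rw [← lW.2, ← lW.2, ← lW.2, ← lW.2, ← coeff_mul_lead (lW.1 i a) (lW.1 j b), cw,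
      coeff_mul_lead (lW.1 j a) (lW.1 i b)]
  have t1 : (1 - trace p) • p = 0 := by
    rw [sub_smul, one_smul, sub_eq_zero]
    refine p0.trans (Matrix.ext fun i j => ?_)
    rw [Matrix.mul_apply, Matrix.smul_apply, smul_eq_mul, trace, Finset.sum_mul]
    exact Finset.sum_congr rfl fun k _ => cp k j i k
  obtain ⟨c, -, hc⟩ := h.cube (col_cr hV ((1 - trace p) • 1)) (a := 1 - trace p)
    ((lV.mul (lead_cr _)).cast rfl (by rw [Matrix.mul_smul, mul_one, smul_sub, t1, sub_zero]))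
  rw [h3, mul_zero] at hc
  have t2 : trace p = 1 := (sub_eq_zero.1 (IsNilpotent.eq_zero ⟨3, hc⟩)).symm
  have g : Wᵀ * W = cm p := Matrix.ext fun i j => by
    have l := lW.transpose.mul lW
    rw [reg_h0 (gram hf hW hW i j) ((l.1 i j).mono (by norm_num)), cm_apply]
    exact congrArg _ ((l.2 i j).trans (by rw [pt, ← p0]))
  have t3 : trace (W * Wᵀ) = 1 := by
    rw [trace_mul_comm, g, ← map_one (HahnSeries.C : A →+* Ls A), ← t2, trace, trace, map_sum]
    rfl
  have fix : ∀ u ∈ M, (∀ i, Ord 0 (u i)) → (W * Wᵀ) *ᵥ u = u := fun u hu ou => funext fun i => by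
    rw [← one_mul (u i), ← t3, trace, Finset.sum_mul]
    change ∑ l, (∑ a, W i a * W l a) * u l = ∑ l, (∑ a, W l a * W l a) * u i
    refine Finset.sum_congr rfl fun l _ => ?_
    rw [Finset.sum_mul, Finset.sum_mul]
    refine Finset.sum_congr rfl fun a _ => ?_
    linear_combination W l a * h.cross h3 h2 (hW a) hu (fun i => lW.1 i a) ou i l
  refine ⟨W, hW, lW.1, t3, fun i j k l => ?_,
    Matrix.ext fun i j => congrFun (fix _ (hW j) fun i => lW.1 i j) i,
    cpl_tw e hs hf h.top hW hV lW lV (by rw [pt, ← p0]) p0.symm fix⟩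
  change (∑ a, W i a * W j a) * (∑ a, W k a * W l a) = (∑ a, W i a * W l a) * ∑ a, W k a * W j a
  rw [Finset.sum_mul_sum, Finset.sum_mul_sum]
  refine Finset.sum_congr rfl fun a _ => Finset.sum_congr rfl fun b _ => ?_
  linear_combination W i a * W k b * cw a b j l

end

end Vale.Agent.P286E67
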