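import Vale.Agent.P286EB.IF
import Vale.Agent.P286EN.Adj
import Vale.Agent.P286ER.Reg

/-!
# The two components of the semistable locus of `SO_3` are disjoint
-/

set_option linter.all false

namespace Vale.Agent.P286E67

open Matrix Vale.Agent.P286 Vale.Agent.P286E Vale.Agent.P286EN Vale.Agent.P286EB
open Vale.Agent.P286ER (On reg_h0 reg_sub reg_smul reg_x reg_y rep_zero)

noncomputable section

attribute [-instance] HahnSeries.powerSeriesAlgebra

variable {A : Type} [CommRing A] {N n : ℕ}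

theorem ord_of_mul_lead {u w : Ls A} {k l : ℤ} (hw : Ord l w) (h1 : IsUnit (w.coeff l))
    (h : Ord (k + l) (u * w)) : Ord k u := by
  obtain ⟨m, hm⟩ := exists_ord u
  have key : ∀ j : ℕ, m + j ≤ k → Ord (m + j) u := fun j => by
    induction j with
    | zero => exact fun _ => hm.mono (by omega)
    | succ j ih =>
      intro hj
      have h0 := ih (by omega)
      have h2 := coeff_mul_lead h0 hw
      rw [h _ (by omega)] at h2
      exact (ord_succ h0 (h1.mul_left_eq_zero.1 h2.symm)).mono (by omega)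
  by_cases hk : k ≤ m
  · exact hm.mono hk
  · exact (key (k - m).toNat (by omega)).mono (by omega)

/-- A constant matrix of any shape. -/
def cr {m l : Type} (c : Matrix m l A) : Matrix m l (Ls A) := c.map HahnSeries.C

theorem lead_cr {m l : Type} (c : Matrix m l A) : Lead 0 (cr c) c :=
  ⟨fun _ _ => Ord.C _, fun _ _ => HahnSeries.coeff_single_same _ _⟩

theorem col_cr {M : Submodule A (Fin N → Ls A)} {S : Matrix (Fin N) (Fin n) (Ls A)}
    (hS : ∀ q, (fun i => S i q) ∈ M) (c : Matrix (Fin n) (Fin N) A) : Col M (S * cr c) := by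
  intro j
  have h : (fun i => (S * cr c) i j) = ∑ q, c q j • fun i => S i q := by
    funext i
    rw [Finset.sum_apply, Matrix.mul_apply]
    exact Finset.sum_congr rfl fun q _ => (mul_comm _ _).trans (C_mul _ _)
  rw [h]
  exact M.sum_mem fun q _ => M.smul_mem _ (hS q)

theorem lead_sm {k : ℤ} {w : Ls A} (hw : Ord k w) :
    Lead k (w • (1 : Matrix (Fin N) (Fin N) (Ls A))) (w.coeff k • 1) := by
  refine ⟨fun i j => ?_, fun i j => ?_⟩
  · exact (hw.mul' ((lead_one (N := N)).1 i j)).mono (by omega)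
  · have h := coeff_mul_lead hw ((lead_one (A := A) (N := N)).1 i j)
    rw [add_zero, (lead_one (A := A) (N := N)).2] at h
    exact h

variable [Algebra ℂ A] {E : Ell}

theorem ord_y_sub : Ord 1 (ys E A - tp A (-3)) := by
  refine ord_of_mul_lead (w := ys E A + tp A (-3)) (l := -3) ((ord_ys E).add (Ord.tp _)) ?_ ?_
  · rw [HahnSeries.coeff_add, ys_coeff, tp, HahnSeries.coeff_single_same, one_add_one_eq_two]
    exact unit_two
  · have h : (ys E A - tp A (-3)) * (ys E A + tp A (-3)) = cc A E.a * xs A + cc A E.b := by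
      have h1 : tp A (-3) * tp A (-3) = xs A ^ 3 := by rw [tp_mul, xs_pow]; rfl
      linear_combination ys_sq (A := A) E - h1
    rw [h]
    exact ((Ord.C _).mul_left ord_xs).add ((Ord.C _).mono (by norm_num))

theorem ys_coeff_eq {k : ℤ} (h : k < 1) (h' : k ≠ -3) : (ys E A).coeff k = 0 := by
  have h1 := ord_y_sub (A := A) (E := E) k h
  rwa [HahnSeries.coeff_sub, tp, HahnSeries.coeff_single_of_ne h', sub_zero] at h1

theorem xs_coeff_ne {k : ℤ} (h : k ≠ -2) : (xs A).coeff k = 0 := HahnSeries.coeff_single_of_ne h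

/-- The functions with a pole of order at most three. -/
theorem reg_three {r : Ls A} (hr : E.Reg r) (h : Ord (-3) r) : r = HahnSeries.C (r.coeff 0) +
    r.coeff (-2) • xs A + r.coeff (-3) • ys E A := by
  have h1 : Ord (-3) (r - r.coeff (-2) • xs A - r.coeff (-3) • ys E A) :=
    (h.sub ((ord_xs.mono (by norm_num)).smul _)).sub ((ord_ys E).smul _)
  have h2 : Ord (-2) (r - r.coeff (-2) • xs A - r.coeff (-3) • ys E A) := ord_succ h1 (by
    rw [HahnSeries.coeff_sub, HahnSeries.coeff_sub, HahnSeries.coeff_smul, HahnSeries.coeff_smul,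
      ys_coeff, xs_coeff_ne (by norm_num), smul_zero, sub_zero, smul_eq_mul, mul_one, sub_self])
  have h3 : Ord (-1) (r - r.coeff (-2) • xs A - r.coeff (-3) • ys E A) := ord_succ h2 (by
    rw [HahnSeries.coeff_sub, HahnSeries.coeff_sub, HahnSeries.coeff_smul, HahnSeries.coeff_smul,
      ys_coeff_eq (by norm_num) (by norm_num), xs_coeff, smul_zero, sub_zero, smul_eq_mul, mul_one,
      sub_self])
  have h4 := reg_h0 (reg_sub (reg_sub hr (reg_smul _ reg_x)) (reg_smul (r.coeff (-3)) reg_y)) h3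
  change r - r.coeff (-2) • xs A - r.coeff (-3) • ys E A =
    HahnSeries.C ((r - r.coeff (-2) • xs A - r.coeff (-3) • ys E A).coeff 0) at h4
  rw [HahnSeries.coeff_sub, HahnSeries.coeff_sub, HahnSeries.coeff_smul, HahnSeries.coeff_smul,
    ys_coeff_eq (by norm_num) (by norm_num), xs_coeff_ne (by norm_num), smul_zero, smul_zero,
    sub_zero, sub_zero] at h4
  rw [← h4]
  ring

theorem px_y {p : Ls A} (hp : p ∈ Px A) (h : p * ys E A ∈ Px A) : p = 0 := by
  obtain ⟨q, rfl⟩ := hp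
  obtain ⟨r, hr⟩ := h
  have h1 := (rep_zero (E := E) (p := -r) (q := q) (by
    rw [map_neg]
    exact neg_add_eq_zero.2 hr)).2
  rw [h1, map_zero]

theorem gram {M : Submodule A (Fin N → Ls A)} (hf : ∀ m ∈ M, ∀ m' ∈ M, E.Reg (m ⬝ᵥ m'))
    {W W' : Matrix (Fin N) (Fin N) (Ls A)} (hW : Col M W) (hW' : Col M W') :
    Ent (Rg E A) (Wᵀ * W') := fun i j => hf _ (hW i) _ (hW' j)

theorem det_px {P : Matrix (Fin N) (Fin N) (Ls A)} (h : Ent (Px A) P) : P.det ∈ Px A := by
  have e : P = (Px A).subtype.mapMatrix (of fun i j => ⟨P i j, h i j⟩) := rfl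
  rw [e, ← RingHom.map_det]
  exact Subtype.property _

/-- The square of the determinant of three sections of `V(o)` is a polynomial in `x`. -/
theorem det_sq {M : Submodule A (Fin N → Ls A)} (hf : ∀ m ∈ M, ∀ m' ∈ M, E.Reg (m ⬝ᵥ m'))
    {W : Matrix (Fin N) (Fin N) (Ls A)} (hW : Col M W) (h : OrdM (-1) W) :
    W.det * W.det ∈ Px A := by
  obtain ⟨P, Q, hP, hQ, e⟩ := ent_split (gram hf hW hW)
  have o : OrdM (-2) (Wᵀ * W) := OrdM.mul (a := -1) (b := -1) (fun i j => h j i) h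
  rw [ent_eq_zero hQ (ysep hP hQ (e ▸ o)).2, smul_zero, add_zero] at e
  have h1 := det_px hP
  rwa [← e, det_mul, det_transpose] at h1

/-- The data of the rule of Cramer in rank three. -/
structure Cra (M : Submodule A (Fin 3 → Ls A)) (θ : Ls A) (S : Matrix (Fin 3) (Fin n) (Ls A))
    (D : Matrix (Fin n) (Fin 3) (Ls A)) : Prop where
  top : M ⊔ On 3 A (-1) = ⊤
  col : ∀ q, (fun i => S i q) ∈ M
  oS : OrdM (-1) S
  oD : OrdM (-2) D
  mul : S * D = θ • 1
  ord : Ord (-3) θ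
  pl : ∀ W : Matrix (Fin 3) (Fin 3) (Ls A), Col M W → OrdM (-1) W → ∃ c : A, W.det = c • θ

theorem exists_cra (hC : CRD) (hP : PL) {v : ℕ × Fin 3 → Fin 3 → Ls A}
    {M : Submodule A (Fin 3 → Ls A)} (hv : Adm v) (hM : LinearMap.range (lin v) = M)
    (vol : ∀ m : Fin 3 → Fin 3 → Ls A, (∀ i, m i ∈ M) → E.Reg (of m).det) {l : Ls A →ₗ[A] A}
    (hl : l (Th v) = 1) : E.Reg (Th v) ∧ ∃ (n : ℕ) (S : Matrix (Fin 3) (Fin n) (Ls A))
      (D : Matrix (Fin n) (Fin 3) (Ls A)), Cra M (Th v) S D := by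
  obtain ⟨h1, n, S, D, h2, h3, h4, -⟩ := hC E A 3 v M hv hM vol l hl
  exact ⟨Th_mem hv.1 (Rm E A) (by rw [hM]; exact vol), n, S, D, h1, fun q => (h2 q).1,
    fun i q => (h2 q).2 i, h4, h3, Th_ord hv.1, hP A 3 v M hv hM h1⟩

section
variable {M : Submodule A (Fin 3 → Ls A)} {θ : Ls A} {S : Matrix (Fin 3) (Fin n) (Ls A)}
  {D : Matrix (Fin n) (Fin 3) (Ls A)}

omit [Algebra ℂ A] in
theorem Cra.lead (h : Cra M θ S D) : Lead (-1) (S * cr (of fun i j => (D i j).coeff (-2)))
    (θ.coeff (-3) • 1) := by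
  have h1 : Lead (-3) (S * D) _ := h.oS.lead.mul h.oD.lead
  rw [h.mul] at h1
  exact (h.oS.lead.mul (lead_cr _)).cast rfl (h1.uniq (lead_sm h.ord))

omit [Algebra ℂ A] in
/-- The leading coefficient in the Pluecker relation. -/
theorem Cra.cube (h : Cra M θ S D) {W : Matrix (Fin 3) (Fin 3) (Ls A)} (hW : Col M W) {a : A}
    (l : Lead (-1) W (a • 1)) : ∃ c : A, W.det = c • θ ∧ a ^ 3 = c * θ.coeff (-3) := by
  obtain ⟨c, hc⟩ := h.pl W hW l.ord
  have h1 := l.det.2
  rw [det_smul, det_one, mul_one, Fintype.card_fin, hc] at h1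
  exact ⟨c, hc, h1.symm⟩

theorem Cra.disj [IsReduced A] (h : Cra M θ S D) (hr : E.Reg θ)
    (hf : ∀ m ∈ M, ∀ m' ∈ M, E.Reg (m ⬝ᵥ m')) :
    θ.coeff 0 * θ.coeff (-3) = 0 ∧ θ.coeff (-2) * θ.coeff (-3) = 0 := by
  obtain ⟨c, hc, h3⟩ := h.cube (col_cr h.col _) h.lead
  have h1 := det_sq hf (col_cr h.col _) h.lead.ord
  have e := reg_three hr h.ord
  set α := θ.coeff 0
  set β := θ.coeff (-2)
  set γ := θ.coeff (-3)
  have hp : (HahnSeries.C α : Ls A) + HahnSeries.C β * xs A ∈ Px A :=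
    (Px A).add_mem (C_mem_Px _) ((Px A).mul_mem (C_mem_Px _) xs_mem_Px)
  have h2 : (HahnSeries.C (2 * c ^ 2 * γ) * (HahnSeries.C α + HahnSeries.C β * xs A)) * ys E A ∈
      Px A := by
    have h4 := (Px A).sub_mem h1 ((Px A).mul_mem (C_mem_Px (c ^ 2)) ((Px A).add_mem
      ((Px A).mul_mem hp hp) ((Px A).mul_mem (C_mem_Px (γ ^ 2)) (ys_sq_mem E))))
    rw [hc, e, ← C_mul, ← C_mul, ← C_mul] at h4
    refine (congrArg (· ∈ Px A) ?_).mp h4
    simp only [map_mul, map_pow, map_ofNat]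
    ring
  have h5 := px_y ((Px A).mul_mem (C_mem_Px _) hp) h2
  have k : ∀ a : A, 2 * c ^ 2 * γ * a = 0 → a * γ = 0 := fun a ha => by
    have h6 : c ^ 2 * γ * a = 0 := unit_two.mul_right_eq_zero.1 (by linear_combination ha)
    refine IsNilpotent.eq_zero ⟨6, ?_⟩
    linear_combination (a ^ 6 * (γ ^ 3 + c * γ)) * h3 + (γ * a ^ 5) * h6
  rw [C_mul, C_mul] at h5
  refine ⟨k _ ?_, k _ ?_⟩
  · have h7 := congrArg (fun w : Ls A => w.coeff 0) h5
    simp only [HahnSeries.coeff_smul, HahnSeries.coeff_add, HahnSeries.C_apply,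
      HahnSeries.coeff_single_same, xs_coeff_ne (A := A) (show (0 : ℤ) ≠ -2 by norm_num),
      smul_zero, add_zero, smul_eq_mul, mul_zero] at h7
    exact h7
  · have h7 := congrArg (fun w : Ls A => w.coeff (-2)) h5
    simp only [HahnSeries.coeff_smul, HahnSeries.coeff_add, HahnSeries.C_apply,
      HahnSeries.coeff_single_of_ne (show (-2 : ℤ) ≠ 0 by norm_num), xs_coeff, zero_add,
      smul_eq_mul, mul_one] at h7
    exact h7

end

theorem disj (hC : CRD) (hP : PL) : DISJ := by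
  intro E A _ _ _ v M hv hM hf vol l hl
  obtain ⟨hr, n, S, D, h⟩ := exists_cra hC hP hv hM vol hl
  exact h.disj hr hf

end

end Vale.Agent.P286E67
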