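import Vale.Agent.P286E67.Co

/-!
# The cohomology over the universal point as a rational representation
-/

set_option linter.all false

namespace Vale.Agent.P286EX

open CategoryTheory Matrix TensorProduct Vale.Agent.P286 Vale.Agent.P286.St Vale.Agent.P286.H847
  Vale.Agent.P286E Vale.Agent.P286EG Vale.Agent.P286EC Kun

noncomputable section

/-- The action of the ring on the cohomology. -/
def Hn.fn {A : Type} [CommRing A] (M : AG A) (q : ℤ) : A →+* Module.End ℂ (Hn M.G q) where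
  toFun a := Hn.map (fnG M a) q
  map_one' := LinearMap.ext (Hn.map_id (LinearMap.congr_fun (map_one M.fn)))
  map_mul' a b := LinearMap.ext fun m => Hn.ind m fun x => congrArg (Hn.pr _ q)
    (Subtype.ext (LinearMap.congr_fun (map_mul M.fn a b) x.1))
  map_zero' := LinearMap.ext fun m => Hn.ind m fun x => (congrArg (Hn.pr _ q)
    (Subtype.ext (LinearMap.congr_fun (map_zero M.fn) x.1))).trans (map_zero (Hn.pr _ q))
  map_add' a b := LinearMap.ext fun m => Hn.ind m fun x => (congrArg (Hn.pr _ q)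
    (Subtype.ext (LinearMap.congr_fun (map_add M.fn a b) x.1))).trans (map_add (Hn.pr _ q) _ _)

/-- The cohomology as a module. -/
abbrev Hn.mod {A : Type} [CommRing A] (M : AG A) (q : ℤ) : Module A (Hn M.G q) :=
  Module.compHom _ (Hn.fn M q)

theorem Hn.tow {A : Type} [CommRing A] [Algebra ℂ A] {M : AG A} (h : Cs M) (q : ℤ) :
    letI := Hn.mod M q
    IsScalarTower ℂ A (Hn M.G q) :=
  letI := Hn.mod M q
  ⟨fun c a m => Hn.ind m fun x => (congrArg (Hn.pr _ q) (Subtype.ext (h.smul c a x.1))).trans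
    (map_smul (Hn.pr _ q) c _)⟩

section
variable {T : TSite} (F : GTD T)

/-- The action of a vector field. -/
def vfG (X : T.C) (v : (T.A X).Der) : GD.Hom (F.F X) (F.F X) :=
  ⟨F.vf X v, fun x => (F.vf_d X v x).symm, F.vf_gr X v⟩

theorem tr_vf {X Y : T.C} (u : X ⟶ Y) (hu : T.dl u = 1) (w : (T.A Y).Der) (v : (T.A X).Der)
    (h : ∀ a, w (T.f u a) = T.f u (v a)) (x : (F.F X).V) :
    F.vf Y w ((F.tr u).f x) = (F.tr u).f (F.vf X v x) := by
  have h1 := (F.trans X Y u).vf w 1 (fun _ => 1) (fun _ => v)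
    (fun a => by rw [Fin.sum_univ_one, one_mul, h]) x
  have h2 : ∀ y, F.fn Y 1 y = y := LinearMap.congr_fun (map_one (fnH F Y))
  have h3 : ∀ y, F.fn Y 0 y = 0 := LinearMap.congr_fun (map_zero (fnH F Y))
  simpa only [hu, h2, Derivation.map_one_eq_zero, h3, smul_zero, sub_zero, Fin.sum_univ_one]
    using h1

theorem tr_vf_zero {X Y : T.C} (u : X ⟶ Y) (hu : T.dl u = 1) (w : (T.A Y).Der)
    (h : ∀ a, w (T.f u a) = 0) (x : (F.F X).V) : F.vf Y w ((F.tr u).f x) = 0 := by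
  have h1 := (F.dmod X).vf_add 0 0 x
  rw [add_zero, left_eq_add] at h1
  rw [tr_vf F u hu w 0 (fun a => (h a).trans (map_zero _).symm), h1, map_zero]

/-- The connection on the cohomology. -/
def Hn.fc (X : T.C) (q : ℤ) :
    letI := Hn.mod (ag F X) q
    H710.FC ℂ (T.R X) (Hn (F.F X) q) :=
  letI := Hn.mod (ag F X) q
  { act := fun v => Hn.map (vfG F X v) q
    act_add := fun v => map_add _
    add_act := fun v w m => Hn.ind m fun x => (congrArg (Hn.pr _ q)
      (Subtype.ext ((F.dmod X).vf_add v w x.1))).trans (map_add (Hn.pr _ q) _ _)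
    smul_act := fun a v m => Hn.ind m fun x => congrArg (Hn.pr _ q)
      (Subtype.ext ((F.dmod X).vf_smul a v x.1))
    leibniz := fun v a m => Hn.ind m fun x => (congrArg (Hn.pr _ q)
      (Subtype.ext ((F.dmod X).vf_fn v a x.1))).trans (map_add (Hn.pr _ q) _ _)
    lie_act := fun v w m => Hn.ind m fun x => (congrArg (Hn.pr _ q)
      (Subtype.ext ((F.dmod X).vf_lie v w x.1))).trans (map_sub (Hn.pr _ q) _ _) }

end

variable {G : Grp} (K : GK G) {I : Type} [SmallCategory I] {D : CD I} {s : ℂ} (xd : XD D)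

theorem dl_inl (X : QO D) : (QS D G s).dl (inl K s X) = 1 :=
  (congrArg (cop K X).x (D.r_id X.i)).trans (map_one _)

theorem dl_inr (X : QO D) : (QS D G s).dl (inr K xd s X) = 1 :=
  (congrArg (cop K X).x (D.r_id X.i)).trans (map_one _)

/-- The infinitesimal action on the universal point. -/
structure IsMu (s : ℂ) (i : I) (m : Fin 3 → Derivation ℂ (OZ D i) (OZ D i)) : Prop where
  L : ∀ a z, lT (OZ D i) (K.L a) (QM.φ (inr K xd s (Zo xd i)) z) =
    QM.φ (inr K xd s (Zo xd i)) (m a z)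
  R : ∀ a z, rT K.O.R (m a) (QM.φ (inr K xd s (Zo xd i)) z) =
    lT (OZ D i) (K.R a) (QM.φ (inr K xd s (Zo xd i)) z)

variable {K xd} {F F' : GTD (QS D G s)} {i : I} {m : Fin 3 → Derivation ℂ (OZ D i) (OZ D i)}

/-- The cohomology over the universal point as a rational representation. -/
def cmH (hm : IsMu K xd s i m) (h : FC (gfa F)) (q : ℤ) : CM K (Hn (F.F (Zo xd i)) q) :=
  (FA.cod K xd (gfa_cs F) h i).cm q (fun a => Hn.map (vfG F (Zo xd i) (m a)) q)
    (fun a => vfG F (cop K (Zo xd i)) (lT (OZ D i) (K.L a)))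
    (fun a => vfG F (cop K (Zo xd i)) (rT K.O.R (m a) - lT (OZ D i) (K.R a)))
    (fun a o y => (F.dmod (cop K (Zo xd i))).vf_fn (lT (OZ D i) (K.L a)) (1 ⊗ₜ o) y)
    (fun a z => Hn.ind z fun x => (congrArg (Hn.pr _ q) (Subtype.ext
      (tr_vf_zero F (inl K s (Zo xd i)) (dl_inl K _) (lT (OZ D i) (K.L a))
        (fun z => (congrArg (z ⊗ₜ[ℂ] ·) (K.L a).map_one_eq_zero).trans (tmul_zero _ _)) x.1))).trans
          (map_zero (Hn.pr _ q)))
    (fun a => Hn.map_sq (tr_vf F (inr K xd s (Zo xd i)) (dl_inr K xd _) (lT (OZ D i) (K.L a))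
      (m a) (hm.L a)))
    (fun a o y => ((F.dmod (cop K (Zo xd i))).vf_fn (rT K.O.R (m a) - lT (OZ D i) (K.R a))
      (1 ⊗ₜ o) y).trans (congrArg (fun b => F.fn (cop K (Zo xd i)) b y + _) (by
        change m a 1 ⊗ₜ[ℂ] o - 1 ⊗ₜ[ℂ] K.R a o = (1 : OZ D i) ⊗ₜ[ℂ] (-K.R a o)
        rw [Derivation.map_one_eq_zero, zero_tmul, zero_sub, tmul_neg])))
    (fun a => Hn.map_sq (tr_vf F (inl K s (Zo xd i)) (dl_inl K _)
      (rT K.O.R (m a) - lT (OZ D i) (K.R a)) (m a) fun z : OZ D i => by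
        change m a z ⊗ₜ[ℂ] (1 : K.O.R) - z ⊗ₜ[ℂ] K.R a 1 = m a z ⊗ₜ[ℂ] 1
        rw [Derivation.map_one_eq_zero, tmul_zero, sub_zero]))
    (fun a z => Hn.ind z fun x => (congrArg (Hn.pr _ q) (Subtype.ext
      (tr_vf_zero F (inr K xd s (Zo xd i)) (dl_inr K xd _) (rT K.O.R (m a) - lT (OZ D i) (K.R a))
        (fun z => sub_eq_zero.2 (hm.R a z)) x.1))).trans (map_zero (Hn.pr _ q)))

theorem cmH_rho (hm : IsMu K xd s i m) (h : FC (gfa F)) (q : ℤ) :
    (cmH hm h q).rho = FA.rho K xd (gfa_cs F) h i q := rfl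

theorem cmH_mu (hm : IsMu K xd s i m) (h : FC (gfa F)) (q : ℤ) (a : Fin 3) :
    (cmH hm h q).mu a = Hn.map (vfG F (Zo xd i) (m a)) q := rfl

theorem cmH_hom (hm : IsMu K xd s i m) (h : FC (gfa F)) (h' : FC (gfa F'))
    (u : FA.Hom (gfa F) (gfa F')) (q : ℤ) :
    CM.Hom (cmH hm h q) (cmH hm h' q) (Hn.map (u.u (Zo xd i)) q) :=
  FA.rho_hom K xd (gfa_cs F) h (gfa_cs F') h' u i q

/-- Bijectivity on the equivariant classes. -/
theorem Hit.bij_map {U : Rep K} (hm : IsMu K xd s i m) (h : FC (gfa F)) (h' : FC (gfa F'))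
    (u : FA.Hom (gfa F) (gfa F')) {N : GD} {e : Fin U.n → GD.Hom N (F.F (Zo xd i))}
    (he : Hit xd U (gfa F) i N e)
    (he' : Hit xd U (gfa F') i N fun k => (u.u (Zo xd i)).comp (e k)) (q : ℤ) :
    Function.Bijective ((cmH_hom hm h h' u q).map U) := by
  refine (Function.Bijective.of_comp_iff _ (he.bij (gfa_cs F) h (cmH hm h q) rfl)).1 ?_
  have e1 : (cmH_hom hm h h' u q).map U ∘ he.map (gfa_cs F) h (cmH hm h q) rfl =
      he'.map (gfa_cs F') h' (cmH hm h' q) rfl :=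
    funext fun x => Subtype.ext (funext fun k => (Hn.map_comp _ _ x).symm)
  rw [e1]
  exact he'.bij _ _ _ _

end

end Vale.Agent.P286EX
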