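import Vale.Agent.P286EG.Ag3

/-!
# Cohomology groups of graded differential spaces; base change along `A → A ⊗ O`
-/

set_option linter.all false

namespace Vale.Agent.P286EX

open Vale.Agent.P286 Vale.Agent.P286.H847 Vale.Agent.P286EG TensorProduct

noncomputable section

variable {M N P : GD}

/-- The cycles. -/
def Zn (M : GD) (q : ℤ) : Submodule ℂ M.V := M.gr q ⊓ LinearMap.ker M.d

/-- The differential with values in the cycles. -/
def dZ (M : GD) (q : ℤ) : M.gr (q - 1) →ₗ[ℂ] Zn M q :=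
  M.d.restrict fun x hx => ⟨M.dgr' (by ring) hx, M.dd x⟩

/-- The cohomology. -/
def Hn (M : GD) (q : ℤ) : Type := Zn M q ⧸ LinearMap.range (dZ M q)

instance (M : GD) (q : ℤ) : AddCommGroup (Hn M q) := Submodule.Quotient.addCommGroup _

instance (M : GD) (q : ℤ) : Module ℂ (Hn M q) := Submodule.Quotient.module _

namespace Hn

variable {q : ℤ}

/-- The class of a cycle. -/
def pr (M : GD) (q : ℤ) : Zn M q →ₗ[ℂ] Hn M q := (LinearMap.range (dZ M q)).mkQ

theorem pr_surj : Function.Surjective (pr M q) := Submodule.mkQ_surjective _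

@[elab_as_elim]
theorem ind {p : Hn M q → Prop} (m : Hn M q) (h : ∀ x, p (pr M q x)) : p m := by
  obtain ⟨x, rfl⟩ := pr_surj m
  exact h x

theorem pr_eq_zero {x : Zn M q} : pr M q x = 0 ↔ ∃ y ∈ M.gr (q - 1), M.d y = x.1 :=
  (Submodule.Quotient.mk_eq_zero _).trans
    ⟨fun ⟨y, h⟩ => ⟨y.1, y.2, congrArg Subtype.val h⟩, fun ⟨y, hy, h⟩ => ⟨⟨y, hy⟩, Subtype.ext h⟩⟩

theorem pr_eq {x x' : Zn M q} :
    pr M q x = pr M q x' ↔ ∃ y ∈ M.gr (q - 1), M.d y = x.1 - x'.1 := by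
  rw [← sub_eq_zero, ← map_sub, pr_eq_zero]
  rfl

theorem pr_dZ (y : M.gr (q - 1)) : pr M q (dZ M q y) = 0 := pr_eq_zero.2 ⟨y.1, y.2, rfl⟩

/-- The map on cycles. -/
def zmap (u : GD.Hom M N) (q : ℤ) : Zn M q →ₗ[ℂ] Zn N q :=
  u.f.restrict fun x hx => ⟨u.deg q x hx.1, (u.comm x).symm.trans
    ((congrArg u.f hx.2).trans (map_zero _))⟩

theorem zmap_val (u : GD.Hom M N) (x : Zn M q) : (zmap u q x).1 = u.f x.1 := rfl

/-- The map on cohomology. -/
def map (u : GD.Hom M N) (q : ℤ) : Hn M q →ₗ[ℂ] Hn N q :=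
  Submodule.liftQ _ (pr N q ∘ₗ zmap u q) (by
    rintro _ ⟨y, rfl⟩
    exact pr_eq_zero.2 ⟨u.f y.1, u.deg _ _ y.2, (u.comm _).symm⟩)

theorem map_pr (u : GD.Hom M N) (x : Zn M q) : map u q (pr M q x) = pr N q (zmap u q x) := rfl

theorem map_comp (v : GD.Hom N P) (u : GD.Hom M N) (m : Hn M q) :
    map (v.comp u) q m = map v q (map u q m) := ind m fun _ => rfl

theorem map_congr {u v : GD.Hom M N} (h : ∀ x, u.f x = v.f x) (m : Hn M q) :
    map u q m = map v q m := ind m fun x => congrArg (pr N q) (Subtype.ext (h x))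

theorem map_id {u : GD.Hom M M} (h : ∀ x, u.f x = x) (m : Hn M q) : map u q m = m :=
  ind m fun x => congrArg (pr M q) (Subtype.ext (h x))

theorem map_sq {Q : GD} {u : GD.Hom M N} {v : GD.Hom N Q} {u' : GD.Hom M P} {v' : GD.Hom P Q}
    (h : ∀ x, v.f (u.f x) = v'.f (u'.f x)) (m : Hn M q) :
    map v q (map u q m) = map v' q (map u' q m) :=
  ind m fun x => congrArg (pr Q q) (Subtype.ext (h x))

theorem qis_iff (u : GD.Hom M N) : GD.Qis u ↔ ∀ q, Function.Bijective (map u q) := by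
  refine forall_congr' fun q => ⟨fun h => ⟨(injective_iff_map_eq_zero _).2 fun m => ?_,
    fun m => ?_⟩, fun h => ⟨fun x hx hd hy => ?_, fun y hy hd => ?_⟩⟩
  · obtain ⟨x, rfl⟩ := pr_surj m
    exact fun hx => pr_eq_zero.2 (h.1 x.1 x.2.1 x.2.2 (pr_eq_zero.1 hx))
  · obtain ⟨y, rfl⟩ := pr_surj m
    obtain ⟨x, hx, hd, e⟩ := h.2 y.1 y.2.1 y.2.2
    exact ⟨pr M q ⟨x, hx, hd⟩, (pr_eq.2 e).symm⟩
  · exact pr_eq_zero.1 ((injective_iff_map_eq_zero _).1 h.1 (pr M q ⟨x, hx, hd⟩) (pr_eq_zero.2 hy))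
  · obtain ⟨m, hm⟩ := h.2 (pr N q ⟨y, hy, hd⟩)
    obtain ⟨x, rfl⟩ := pr_surj m
    exact ⟨x.1, x.2.1, x.2.2, pr_eq.1 hm.symm⟩

end Hn

/-- The action of an element of the ring. -/
def fnG {A : Type} [CommRing A] (M : AG A) (a : A) : GD.Hom M.G M.G :=
  ⟨M.fn a, fun x => (M.d a x).symm, fun m x => M.gr a m x⟩

namespace Kun

variable {A O : Type} [CommRing A] [Algebra ℂ A] [CommRing O] [Algebra ℂ O]

/-- The inclusion of the first factor. -/
abbrev iL (A O : Type) [CommRing A] [Algebra ℂ A] [CommRing O] [Algebra ℂ O] : A →+* A ⊗[ℂ] O :=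
  (Algebra.TensorProduct.includeLeft : A →ₐ[ℂ] A ⊗[ℂ] O)

/-- The action is compatible with the scalars. -/
def Cs {A : Type} [CommRing A] [Algebra ℂ A] (M : AG A) : Prop :=
  ∀ (c : ℂ) x, M.fn (algebraMap ℂ A c) x = c • x

variable {M : AG A} {N : AG (A ⊗[ℂ] O)}

theorem Cs.smul (h : Cs M) (c : ℂ) (a : A) (x : M.G.V) : M.fn (c • a) x = c • M.fn a x := by
  rw [Algebra.smul_def, map_mul, Module.End.mul_apply, h]

/-- The action on the homogeneous elements. -/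
def fr (M : AG A) (i : ℤ) (a : A) : M.G.gr i →ₗ[ℂ] M.G.gr i := (M.fn a).restrict (M.gr a i)

/-- The map `(a ⊗ o, x) ↦ o ⊗ a x`. -/
def kb (h : Cs M) (O : Type) [CommRing O] [Algebra ℂ O] (i : ℤ) :
    A ⊗[ℂ] O →ₗ[ℂ] (M.G.gr i →ₗ[ℂ] O ⊗[ℂ] M.G.gr i) :=
  TensorProduct.lift (LinearMap.mk₂ ℂ (fun a o => TensorProduct.mk ℂ O _ o ∘ₗ fr M i a)
    (fun a a' o => LinearMap.ext fun x => (congrArg (o ⊗ₜ[ℂ] ·) (Subtype.ext
      (LinearMap.congr_fun (map_add M.fn a a') x.1) : fr M i (a + a') x = fr M i a x +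
        fr M i a' x)).trans (tmul_add _ _ _))
    (fun c a o => LinearMap.ext fun x => (congrArg (o ⊗ₜ[ℂ] ·) (Subtype.ext (h.smul c a x.1) :
      fr M i (c • a) x = c • fr M i a x)).trans (tmul_smul _ _ _))
    (fun a o o' => LinearMap.ext fun x => add_tmul _ _ _)
    (fun c a o => LinearMap.ext fun x => (smul_tmul' _ _ _).symm))

theorem kb_tmul (h : Cs M) (i : ℤ) (a : A) (o : O) (x : M.G.gr i) :
    kb h O i (a ⊗ₜ o) x = o ⊗ₜ fr M i a x := rfl

theorem kb_mul (h : Cs M) (i : ℤ) (a : A) (b : A ⊗[ℂ] O) (x : M.G.gr i) :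
    kb h O i (iL A O a * b) x = kb h O i b (fr M i a x) := by
  induction b using TensorProduct.induction_on with
  | zero => simp only [mul_zero, map_zero, LinearMap.zero_apply]
  | add b b' hb hb' => simp only [mul_add, map_add, LinearMap.add_apply, hb, hb']
  | tmul a' o =>
    change kb h O i ((a ⊗ₜ 1) * (a' ⊗ₜ o)) x = _
    rw [Algebra.TensorProduct.tmul_mul_tmul, one_mul, kb_tmul, kb_tmul, mul_comm]
    exact congrArg (o ⊗ₜ[ℂ] ·) (Subtype.ext (LinearMap.congr_fun (map_mul M.fn a' a) x.1))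

theorem kb_d (h : Cs M) (i j : ℤ) (b : A ⊗[ℂ] O) (x : M.G.gr i) :
    kb h O j b (AG.gd M.G i j x) = (AG.gd M.G i j).lTensor O (kb h O i b x) := by
  induction b using TensorProduct.induction_on with
  | zero => simp only [map_zero, LinearMap.zero_apply]
  | add b b' hb hb' => simp only [map_add, LinearMap.add_apply, hb, hb']
  | tmul a o => exact congrArg (o ⊗ₜ[ℂ] ·) ((M.dT i j).map_smul a x).symm

/-- The map `(A ⊗ O) ⊗_A M → O ⊗ M`. -/
def kk (h : Cs M) (O : Type) [CommRing O] [Algebra ℂ O] (i : ℤ) :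
    (bcx (iL A O) M.mc).X i →+ O ⊗[ℂ] M.G.gr i :=
  letI : Module A (A ⊗[ℂ] O) := Module.compHom _ (iL A O)
  TensorProduct.liftAddHom
    { toFun := fun b => (kb h O i b).toAddMonoidHom
      map_zero' := by rw [map_zero]; rfl
      map_add' := fun b b' => by rw [map_add]; rfl } (kb_mul h i)

theorem kk_el (h : Cs M) (i : ℤ) (b : A ⊗[ℂ] O) (x : M.G.gr i) :
    kk h O i (ExtS.el (iL A O) b x) = kb h O i b x := rfl

theorem kk_d (h : Cs M) (i j : ℤ) (ξ : (bcx (iL A O) M.mc).X i) :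
    kk h O j ((bcx (iL A O) M.mc).d i j ξ) = (AG.gd M.G i j).lTensor O (kk h O i ξ) :=
  bc_ext (u := (kk h O j).comp ((bcx (iL A O) M.mc).d i j).toAddMonoidHom)
    (v := ((AG.gd M.G i j).lTensor O).toAddMonoidHom.comp (kk h O i)) (kb_d h i j) ξ

theorem el_mul {A B P : Type} [CommRing A] [CommRing B] [AddCommGroup P] [Module A P]
    (f : A →+* B) (a : A) (b : B) (x : P) : ExtS.el f (f a * b) x = ExtS.el f b (a • x) :=
  letI : Module A B := Module.compHom B f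
  smul_tmul a b x

/-- The element `b ⊗ x` as a biadditive map. -/
def elH {A B : Type} [CommRing A] [CommRing B] (f : A →+* B) (P : MCx A) (i : ℤ) :
    B →+ P.X i →+ (bcx f P).X i :=
  letI : Module A B := Module.compHom B f
  LinearMap.toAddMonoidHom'.comp (TensorProduct.mk A B (P.X i)).toAddMonoidHom

theorem kk_surj (h : Cs M) (i : ℤ) (ζ : O ⊗[ℂ] M.G.gr i) : ∃ ξ, kk h O i ξ = ζ ∧
    ∀ j, (AG.gd M.G i j).lTensor O ζ = 0 → (bcx (iL A O) M.mc).d i j ξ = 0 := by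
  let jj : ∀ i, O ⊗[ℂ] M.G.gr i →+ (bcx (iL A O) M.mc).X i := fun i => TensorProduct.liftAddHom
    ((elH (iL A O) M.mc i).comp (TensorProduct.mk ℂ A O 1).toAddMonoidHom)
    (fun c o x => by
      have e : (1 : A) ⊗ₜ[ℂ] (c • o) = iL A O (algebraMap ℂ A c) * (1 ⊗ₜ o) := by
        change _ = (algebraMap ℂ A c ⊗ₜ[ℂ] (1 : O)) * (1 ⊗ₜ o)
        rw [Algebra.TensorProduct.tmul_mul_tmul, one_mul, mul_one, Algebra.algebraMap_eq_smul_one,
          smul_tmul]
      exact (congrArg (fun b => ExtS.el (P := M.T i) (iL A O) b x) e).trans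
        ((el_mul (P := M.T i) _ _ _ x).trans (congrArg _
          (M.val_inj (y := (c • (show M.G.gr i from x) : M.G.gr i)) (h c _)))))
  have h1 : ∀ ζ, kk h O i (jj i ζ) = ζ := fun ζ => by
    induction ζ using TensorProduct.induction_on with
    | zero => rw [map_zero, map_zero]
    | add x y hx hy => rw [map_add, map_add, hx, hy]
    | tmul o x =>
      exact congrArg (o ⊗ₜ[ℂ] ·)
        (Subtype.ext (LinearMap.congr_fun (map_one M.fn) x.1) : fr M i 1 x = x)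
  have h2 : ∀ j ζ, (bcx (iL A O) M.mc).d i j (jj i ζ) = jj j ((AG.gd M.G i j).lTensor O ζ) :=
    fun j ζ => by
      induction ζ using TensorProduct.induction_on with
      | zero => rw [map_zero, map_zero, map_zero, map_zero]
      | add x y hx hy => rw [map_add, map_add, hx, hy, map_add, map_add]
      | tmul o x => rfl
  exact ⟨jj i ζ, h1 ζ, fun j hj => by rw [h2, hj, map_zero]⟩

/-- The map `o ⊗ x ↦ (1 ⊗ o) t x`. -/
def ps (hN : Cs N) {V W : Type} [AddCommGroup V] [Module ℂ V] [AddCommGroup W] [Module ℂ W]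
    (F : (A ⊗[ℂ] O) → W →ₗ[ℂ] W) (h1 : ∀ b b' w, F (b + b') w = F b w + F b' w)
    (h2 : ∀ (c : ℂ) b w, F (c • b) w = c • F b w) (u : V →ₗ[ℂ] W) : O ⊗[ℂ] V →ₗ[ℂ] W :=
  TensorProduct.lift (LinearMap.mk₂ ℂ (fun o x => F (1 ⊗ₜ o) (u x))
    (fun o o' x => by rw [tmul_add, h1]) (fun c o x => by rw [tmul_smul, h2])
    (fun o x x' => by rw [map_add, map_add]) fun c o x => by rw [map_smul, map_smul])

end Kun

open Kun

variable {A O : Type} [CommRing A] [Algebra ℂ A] [CommRing O] [Algebra ℂ O] {M' : AG A}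
  {N' : AG (A ⊗[ℂ] O)}

/-- The map `O ⊗ H(M) → H(N)`, `o ⊗ x ↦ (1 ⊗ o) t x`. -/
def kun (hN : Cs N') (t : GD.Hom M'.G N'.G) (q : ℤ) : O ⊗[ℂ] Hn M'.G q →ₗ[ℂ] Hn N'.G q :=
  ps hN (fun b => Hn.map (fnG N' b) q)
    (fun b b' w => Hn.ind w fun x => (congrArg (Hn.pr _ q) (Subtype.ext
      (LinearMap.congr_fun (map_add N'.fn b b') x.1))).trans (map_add (Hn.pr _ q) _ _))
    (fun c b w => Hn.ind w fun x => (congrArg (Hn.pr _ q) (Subtype.ext (hN.smul c b x.1))).trans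
      (map_smul (Hn.pr _ q) _ _)) (Hn.map t q)

theorem kun_tmul (hN : Cs N') (t : GD.Hom M'.G N'.G) (q : ℤ) (o : O) (m : Hn M'.G q) :
    kun hN t q (o ⊗ₜ m) = Hn.map (fnG N' (1 ⊗ₜ o)) q (Hn.map t q m) := rfl

/-- **Base change along `A → A ⊗ O`.** -/
theorem kun_bij (hM : Cs M') (hN : Cs N') {t : GD.Hom M'.G N'.G} (h : DB (iL A O) M' N' t)
    (q : ℤ) : Function.Bijective (kun hN t q) := by
  have hf : (iL A O).Flat := by
    have e : iL A O = algebraMap A (A ⊗[ℂ] O) := rfl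
    rw [e, RingHom.flat_algebraMap_iff]
    infer_instance
  obtain ⟨h1, h2⟩ := (db_flat hf h.1).1 h (q - 1) q (q + 1) (by ring) rfl
  let ψ : O ⊗[ℂ] M'.G.gr q →ₗ[ℂ] N'.G.V := ps hN (fun b => N'.fn b)
    (fun b b' => LinearMap.congr_fun (map_add N'.fn b b')) hN.smul (t.f ∘ₗ (M'.G.gr q).subtype)
  let iZ : Zn M'.G q →ₗ[ℂ] M'.G.gr q := Submodule.inclusion inf_le_left
  have e1 : ∀ ξ, ψ (kk hM O q ξ) = N'.val q ((bm _ h.1.sl).f q ξ) := fun ξ =>
    bc_ext (u := ψ.toAddMonoidHom.comp (kk hM O q)) (v := (N'.val q).comp ((bm _ h.1.sl).f q))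
      (fun b (x : M'.G.gr q) => by
        change ψ (kb hM O q b x) = N'.fn b (t.f x.1)
        induction b using TensorProduct.induction_on with
        | zero => simp only [map_zero, LinearMap.zero_apply]
        | add b b' hb hb' => simp only [map_add, LinearMap.add_apply, hb, hb']
        | tmul a o =>
          change N'.fn (1 ⊗ₜ o) (t.f (M'.fn a x.1)) = _
          rw [h.1 a, ← Module.End.mul_apply, ← map_mul]
          change N'.fn ((1 ⊗ₜ o) * (a ⊗ₜ 1)) _ = _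
          rw [Algebra.TensorProduct.tmul_mul_tmul, one_mul, mul_one]) ξ
  have e2 : ∀ ζ : O ⊗[ℂ] Zn M'.G q, ∃ z : Zn N'.G q, z.1 = ψ (iZ.lTensor O ζ) ∧
      kun hN t q ((Hn.pr _ q).lTensor O ζ) = Hn.pr _ q z := fun ζ => by
    induction ζ using TensorProduct.induction_on with
    | zero => exact ⟨0, by rw [map_zero, map_zero]; rfl, by rw [map_zero, map_zero, map_zero]⟩
    | add x y hx hy =>
      obtain ⟨z, h3, h4⟩ := hx
      obtain ⟨z', h3', h4'⟩ := hy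
      exact ⟨z + z', by rw [map_add, map_add, ← h3, ← h3']; rfl,
        by rw [map_add, map_add, h4, h4', map_add]⟩
    | tmul o x => exact ⟨Hn.zmap (fnG N' (1 ⊗ₜ o)) q (Hn.zmap t q x), rfl, rfl⟩
  have ex : Function.Exact iZ (AG.gd M'.G q (q + 1)) := fun x =>
    ⟨fun hx => ⟨⟨x.1, x.2, (M'.val_gd rfl x).symm.trans (congrArg Subtype.val hx)⟩, rfl⟩, by
      rintro ⟨z, rfl⟩
      exact Subtype.ext ((M'.val_gd rfl _).trans z.2.2)⟩
  have ex' := Module.Flat.lTensor_exact O ex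
  constructor
  · refine (injective_iff_map_eq_zero _).2 fun ω hω => ?_
    obtain ⟨ζ, rfl⟩ := LinearMap.lTensor_surjective O (Hn.pr_surj (M := M'.G) (q := q)) ω
    obtain ⟨z, h3, h4⟩ := e2 ζ
    obtain ⟨y, hy, h5⟩ := Hn.pr_eq_zero.1 (h4.symm.trans hω)
    obtain ⟨ξ, h6, h7⟩ := kk_surj hM q (iZ.lTensor O ζ)
    obtain ⟨ξ', h8⟩ := h1 ξ (h7 _ ((ex' _).2 ⟨ζ, rfl⟩)) ⟨N'.el y hy, N'.val_inj (by
      rw [← e1, h6, ← h3, ← h5]
      exact N'.val_d (by ring) _)⟩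
    have h9 : AG.gd M'.G (q - 1) q = iZ ∘ₗ dZ M'.G q :=
      LinearMap.ext fun x => Subtype.ext (M'.val_gd (by ring) x)
    rw [← h8, kk_d, h9, LinearMap.lTensor_comp_apply] at h6
    rw [← Module.Flat.lTensor_preserves_injective_linearMap (M := O) iZ
      (Submodule.inclusion_injective _) h6, ← LinearMap.lTensor_comp_apply,
      show Hn.pr M'.G q ∘ₗ dZ M'.G q = 0 from LinearMap.ext Hn.pr_dZ, LinearMap.lTensor_zero,
      LinearMap.zero_apply]
  · refine fun m => Hn.ind m fun y => ?_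
    obtain ⟨ξ, h3, y', h4⟩ := h2 (N'.el y.1 y.2.1) (N'.val_inj (by
      rw [map_zero]
      exact (N'.val_d rfl _).trans y.2.2))
    obtain ⟨ζ, h5⟩ := (ex' (kk hM O q ξ)).1 (by rw [← kk_d, h3, map_zero])
    obtain ⟨z, h6, h7⟩ := e2 ζ
    refine ⟨_, h7.trans (Hn.pr_eq.2 ⟨N'.val _ y', N'.val_mem y', ?_⟩).symm⟩
    rw [h6, h5, e1, ← N'.val_d (by ring : q - 1 + 1 = q)]
    exact (congrArg (N'.val q) h4).trans (map_sub _ _ _)

end

end Vale.Agent.P286EX
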