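import Vale.Agent.P286E67.Hem
import Vale.Agent.P286EX6.Vf

/-!
# Reflection of quasi-isomorphisms
-/

set_option linter.all false

namespace Vale.Agent.P286EX

open CategoryTheory Matrix TensorProduct Vale.Agent.P286 Vale.Agent.P286.St Vale.Agent.P286.H847
  Vale.Agent.P286E Vale.Agent.P286EG Vale.Agent.P286EC Kun

noncomputable section

/-- The cohomology is a `D`-module. -/
theorem Hn.dmod {T : TSite} (F : GTD T) (X : T.C) (q : ℤ) :
    IsDMod (fun a => ⇑(Hn.map (fnG (ag F X) a) q)) fun v => ⇑(Hn.map (vfG F X v) q) where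
  const c m := Hn.ind m fun x => (congrArg (Hn.pr _ q)
    (Subtype.ext ((F.dmod X).const c x.1))).trans (map_smul (Hn.pr _ q) c x)
  fn_add a b := LinearMap.congr_fun (map_add (Hn.fn (ag F X) q) a b)
  fn_mul a b := LinearMap.congr_fun (map_mul (Hn.fn (ag F X) q) a b)
  vf_add := letI := Hn.mod (ag F X) q; (Hn.fc F X q).add_act
  vf_smul := letI := Hn.mod (ag F X) q; (Hn.fc F X q).smul_act
  vf_fn := letI := Hn.mod (ag F X) q; (Hn.fc F X q).leibniz
  vf_lie := letI := Hn.mod (ag F X) q; (Hn.fc F X q).lie_act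

variable {G : Grp} (K : GK G) {I : Type} [SmallCategory I] {D : CD I} {s : ℂ} (xd : XD D)

theorem isMu (s : ℂ) (i : I) : IsMu K xd s i (muV xd i K) :=
  ⟨lT_actZ xd i K s, rT_actZ xd i K s⟩

variable {F F' : GTD (QS D G s)}

/-- The cohomology over the universal point as an equivariant module. -/
def hem (h : FC (gfa F)) (i : I) (q : ℤ) : EM K (Hn (F.F (Zo xd i)) q) where
  toCM := cmH (isMu K xd s i) h q
  toOps := opsZ xd i (fun a => Hn.map (fnG (ag F (Zo xd i)) a) q)
    fun v => Hn.map (vfG F (Zo xd i) v) q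
  rel := opsZ_rel' xd i K (Hn.dmod F (Zo xd i) q)

theorem hem_rho (h : FC (gfa F)) (i : I) (q : ℤ) :
    (hem K xd h i q).rho = FA.rho K xd (gfa_cs F) h i q := rfl

theorem hem_hom (h : FC (gfa F)) (h' : FC (gfa F')) (u : FA.Hom (gfa F) (gfa F'))
    (hu : ∀ X v x, (u.u X).f (F.vf X v x) = F'.vf X v ((u.u X).f x)) (i : I) (q : ℤ) :
    EM.Hom (hem K xd h i q) (hem K xd h' i q) (Hn.map (u.u (Zo xd i)) q) :=
  ⟨cmH_hom (isMu K xd s i) h h' u q, opsZ_hom xd i (fun a => Hn.map_sq (u.li (Zo xd i) a))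
    fun v => Hn.map_sq (hu (Zo xd i) v)⟩

/-- **Reflection of quasi-isomorphisms.** -/
theorem refl : REFL := fun _ _ _ _ s K xd _ hU _ _ u h h' hu i _ _ he he' =>
  (Hn.qis_iff _).2 fun q => (hem_hom K xd h h' u hu i q).refl hU
    (Hit.bij_map (isMu K xd s i) h h' u he he' q)

end

end Vale.Agent.P286EX
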